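import Mathlib
import Vale.Agent.Lib.P031.Defs

namespace Vale.Agent.Lib.P031

open Filter Real

lemma tc_subset (x : ℝ) :
    {v : ℕ | (v : ℝ) ≤ x ∧ ∃ n : ℕ, 0 < n ∧ Nat.totient n = v} ⊆
      ((Finset.Icc 1 ⌊x⌋₊ : Finset ℕ) : Set ℕ) := by
  intro v hv
  obtain ⟨hvx, n, hn, rfl⟩ := hv
  simp only [Finset.coe_Icc, Set.mem_Icc]
  exact ⟨Nat.totient_pos.mpr hn, Nat.le_floor hvx⟩

lemma tc_finite (x : ℝ) :
    {v : ℕ | (v : ℝ) ≤ x ∧ ∃ n : ℕ, 0 < n ∧ Nat.totient n = v}.Finite :=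
  (Finset.finite_toSet _).subset (tc_subset x)

lemma tc_mono {x y : ℝ} (h : x ≤ y) : totientCount x ≤ totientCount y := by
  apply Set.ncard_le_ncard _ (tc_finite y)
  intro v hv
  exact ⟨hv.1.trans h, hv.2⟩

lemma tc_le {x : ℝ} (hx : 0 ≤ x) : (totientCount x : ℝ) ≤ x := by
  have h1 : totientCount x ≤ (Finset.Icc 1 ⌊x⌋₊).card := by
    have := Set.ncard_le_ncard (tc_subset x) (Finset.finite_toSet _)
    rwa [Set.ncard_coe_finset] at this
  have h2 : (Finset.Icc 1 ⌊x⌋₊).card = ⌊x⌋₊ := by simp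
  calc (totientCount x : ℝ) ≤ (⌊x⌋₊ : ℝ) := by exact_mod_cast h2 ▸ h1
    _ ≤ x := Nat.floor_le hx

lemma tc_pos {x : ℝ} (hx : 1 ≤ x) : 1 ≤ totientCount x := by
  have : 0 < totientCount x := by
    rw [totientCount, Set.ncard_pos (tc_finite x)]
    exact ⟨1, by simpa using hx, 1, by norm_num, by simp⟩
  exact this

lemma tc_ge_pi (x : ℝ) : Nat.primeCounting ⌊x⌋₊ ≤ totientCount x := by
  rw [← Nat.primesLE_card_eq_primeCounting]
  have hinj : Set.InjOn (fun p : ℕ => p - 1) (Nat.primesLE ⌊x⌋₊ : Set ℕ) := by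
    intro p hp q hq hpq
    have hp2 := Nat.two_le_of_mem_primesLE (Finset.mem_coe.mp hp)
    have hq2 := Nat.two_le_of_mem_primesLE (Finset.mem_coe.mp hq)
    simp only at hpq
    omega
  rw [← Finset.card_image_of_injOn hinj, ← Set.ncard_coe_finset]
  apply Set.ncard_le_ncard _ (tc_finite x)
  intro v hv
  simp only [Finset.coe_image, Set.mem_image, Finset.mem_coe] at hv
  obtain ⟨p, hp, rfl⟩ := hv
  have hpp := Nat.prime_of_mem_primesLE hp
  have hple := Nat.le_of_mem_primesLE hp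
  refine ⟨?_, p, hpp.pos, Nat.totient_prime hpp⟩
  have h1 : ((p - 1 : ℕ) : ℝ) ≤ (⌊x⌋₊ : ℝ) := by exact_mod_cast (Nat.sub_le p 1).trans hple
  have hx0 : 0 ≤ x := by
    by_contra h
    have : ⌊x⌋₊ = 0 := Nat.floor_of_nonpos (not_le.mp h).le
    rw [this] at hple
    have := hpp.pos
    omega
  exact h1.trans (Nat.floor_le hx0)

end Vale.Agent.Lib.P031
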