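import Mathlib
import Vale.Agent.Lib.P031.Basic

namespace Vale.Agent.Lib.P031

open Filter Real

/-- `V(x) ≥ x^(1-δ)` for all large `x` (from Chebyshev's lower bound for `π`). -/
lemma tc_ge_rpow {δ : ℝ} (hδ : 0 < δ) (hδ1 : δ ≤ 1) :
    ∀ᶠ x : ℝ in atTop, x ^ (1 - δ) ≤ (totientCount x : ℝ) := by
  have hlo := (isLittleO_log_rpow_atTop hδ).bound (show (0 : ℝ) < 1 / 10 by norm_num)
  filter_upwards [hlo, eventually_ge_atTop (4 : ℝ)] with x hx h4
  have hx0 : 0 < x := by linarith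
  have hx1 : 1 < x := by linarith
  have hlogpos : 0 < log x := Real.log_pos hx1
  have hpow_nonneg : 0 ≤ x ^ δ := Real.rpow_nonneg hx0.le δ
  have hlog : log x ≤ x ^ δ / 10 := by
    rw [Real.norm_of_nonneg hlogpos.le, Real.norm_of_nonneg hpow_nonneg] at hx
    linarith
  have hpowle : x ^ δ ≤ x := by
    calc x ^ δ ≤ x ^ (1 : ℝ) := Real.rpow_le_rpow_of_exponent_le hx1.le hδ1
      _ = x := Real.rpow_one x
  have hmul : x ^ (1 - δ) * x ^ δ = x := by
    rw [← Real.rpow_add hx0]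
    simp
  have hpow2 : 0 ≤ x ^ (1 - δ) := Real.rpow_nonneg hx0.le _
  have h1 : x ^ (1 - δ) * log x ≤ x / 10 := by
    calc x ^ (1 - δ) * log x ≤ x ^ (1 - δ) * (x ^ δ / 10) :=
          mul_le_mul_of_nonneg_left hlog hpow2
      _ = x / 10 := by rw [← mul_div_assoc, hmul]
  have hlog2 : log (x + 2) ≤ log 2 + log x := by
    rw [← Real.log_mul (by norm_num) hx0.ne']
    apply Real.log_le_log (by linarith)
    linarith
  have hl2 : (0.69 : ℝ) < log 2 := by
    have := Real.log_two_gt_d9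
    linarith
  have h2 : x / 10 ≤ (x - 1) * log 2 - log (x + 2) := by
    have : (x - 2) * 0.69 ≤ (x - 2) * log 2 :=
      mul_le_mul_of_nonneg_left hl2.le (by linarith)
    nlinarith
  have h3 := Chebyshev.pi_ge' hx1
  have h4' : x ^ (1 - δ) ≤ ((x - 1) * log 2 - log (x + 2)) / log x := by
    rw [le_div_iff₀ hlogpos]
    linarith
  have h5 : ((Nat.primeCounting ⌊x⌋₊ : ℕ) : ℝ) ≤ (totientCount x : ℝ) := by
    exact_mod_cast tc_ge_pi x
  linarith

end Vale.Agent.Lib.P031
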