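import Mathlib
import Vale.Agent.Lib.P031.Growth

namespace Vale.Agent.Lib.P031

open Filter Real

lemma pow_mul_ge {c x0 : ℝ} (hc : 1 < c) (hx0 : 1 ≤ x0) (k : ℕ) : x0 ≤ c ^ k * x0 := by
  have : (1 : ℝ) ≤ c ^ k := one_le_pow₀ hc.le
  nlinarith

/-- Upper part: `V(cx) < (c+ε) V(x)` for arbitrarily large `x`. -/
theorem frequently_lt (c : ℝ) (hc : 1 < c) (ε : ℝ) (hε : 0 < ε) :
    ∃ᶠ x : ℝ in atTop, (totientCount (c * x) : ℝ) < (c + ε) * totientCount x := by
  by_contra hcon
  rw [Filter.not_frequently] at hcon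
  obtain ⟨X0, hX0⟩ := eventually_atTop.mp hcon
  obtain ⟨x0, hx0⟩ : ∃ x0 : ℝ, x0 = max X0 1 := ⟨_, rfl⟩
  have hx01 : 1 ≤ x0 := hx0 ▸ le_max_right _ _
  have hx0X : X0 ≤ x0 := hx0 ▸ le_max_left _ _
  have hc0 : 0 < c := by linarith
  have hind : ∀ k : ℕ, (c + ε) ^ k ≤ (totientCount (c ^ k * x0) : ℝ) := by
    intro k
    induction k with
    | zero =>
      simp only [pow_zero, one_mul]
      exact_mod_cast tc_pos hx01
    | succ k ih =>
      have h1 := hX0 (c ^ k * x0) (hx0X.trans (pow_mul_ge hc hx01 k))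
      rw [not_lt] at h1
      have h2 : c * (c ^ k * x0) = c ^ (k + 1) * x0 := by ring
      rw [h2] at h1
      calc (c + ε) ^ (k + 1) = (c + ε) * (c + ε) ^ k := by ring
        _ ≤ (c + ε) * totientCount (c ^ k * x0) :=
            mul_le_mul_of_nonneg_left ih (by linarith)
        _ ≤ _ := h1
  have hub : ∀ k : ℕ, (totientCount (c ^ k * x0) : ℝ) ≤ c ^ k * x0 := by
    intro k
    apply tc_le
    have := pow_mul_ge hc hx01 k
    linarith
  have hρ : 1 < (c + ε) / c := by
    rw [one_lt_div hc0]; linarith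
  obtain ⟨k, hk⟩ := ((tendsto_pow_atTop_atTop_of_one_lt hρ).eventually_gt_atTop x0).exists
  have h3 : (c + ε) ^ k ≤ c ^ k * x0 := (hind k).trans (hub k)
  have h4 : ((c + ε) / c) ^ k ≤ x0 := by
    rw [div_pow, div_le_iff₀ (pow_pos hc0 k)]
    linarith
  linarith

/-- Lower part: `(c-ε) V(x) < V(cx)` for arbitrarily large `x`. -/
theorem frequently_gt (c : ℝ) (hc : 1 < c) (ε : ℝ) (hε : 0 < ε) :
    ∃ᶠ x : ℝ in atTop, (c - ε) * totientCount x < (totientCount (c * x) : ℝ) := by
  have hc0 : 0 < c := by linarith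
  rcases le_or_gt (c - ε) 0 with hle | hpos
  · apply Eventually.frequently
    filter_upwards [eventually_ge_atTop (1 : ℝ)] with x hx
    have h1 : (1 : ℝ) ≤ totientCount (c * x) := by
      exact_mod_cast tc_pos (by nlinarith : (1 : ℝ) ≤ c * x)
    have h2 : (0 : ℝ) ≤ totientCount x := Nat.cast_nonneg _
    nlinarith
  · by_contra hcon
    rw [Filter.not_frequently] at hcon
    obtain ⟨X0, hX0⟩ := eventually_atTop.mp hcon
    obtain ⟨x0, hx0⟩ : ∃ x0 : ℝ, x0 = max X0 1 := ⟨_, rfl⟩
    have hx01 : 1 ≤ x0 := hx0 ▸ le_max_right _ _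
    have hx0X : X0 ≤ x0 := hx0 ▸ le_max_left _ _
    have hx0pos : 0 < x0 := by linarith
    obtain ⟨c', hc'⟩ : ∃ c' : ℝ, c' = c - ε := ⟨_, rfl⟩
    rw [← hc'] at hpos hX0
    have hc'c : c' < c := by rw [hc']; linarith
    -- choose δ
    have ht : 0 < log c := Real.log_pos hc
    have hlt : log c' < log c := Real.log_lt_log hpos hc'c
    obtain ⟨δ, hδ⟩ : ∃ δ : ℝ, δ = min 1 ((log c - log c') / (2 * log c)) := ⟨_, rfl⟩
    have hδpos : 0 < δ := by
      rw [hδ]
      apply lt_min one_pos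
      apply div_pos <;> linarith
    have hδ1 : δ ≤ 1 := hδ ▸ min_le_left _ _
    have hδ2 : δ * log c ≤ (log c - log c') / 2 := by
      have : δ ≤ (log c - log c') / (2 * log c) := hδ ▸ min_le_right _ _
      calc δ * log c ≤ (log c - log c') / (2 * log c) * log c :=
            mul_le_mul_of_nonneg_right this ht.le
        _ = (log c - log c') / 2 := by field_simp
    have hcpow : c' < c ^ (1 - δ) := by
      rw [Real.rpow_def_of_pos hc0]
      calc c' = exp (log c') := (Real.exp_log hpos).symm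
        _ < exp (log c * (1 - δ)) := by
            apply Real.exp_lt_exp.mpr
            nlinarith
    have hρ : 1 < c ^ (1 - δ) / c' := by
      rw [one_lt_div hpos]; exact hcpow
    obtain ⟨X1, hX1⟩ := eventually_atTop.mp (tc_ge_rpow hδpos hδ1)
    have hind : ∀ k : ℕ, (totientCount (c ^ k * x0) : ℝ) ≤ c' ^ k * x0 := by
      intro k
      induction k with
      | zero =>
        simp only [pow_zero, one_mul]
        exact tc_le hx0pos.le
      | succ k ih =>
        have h1 := hX0 (c ^ k * x0) (hx0X.trans (pow_mul_ge hc hx01 k))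
        rw [not_lt] at h1
        have h2 : c * (c ^ k * x0) = c ^ (k + 1) * x0 := by ring
        rw [h2] at h1
        calc (totientCount (c ^ (k + 1) * x0) : ℝ) ≤ c' * totientCount (c ^ k * x0) := h1
          _ ≤ c' * (c' ^ k * x0) := mul_le_mul_of_nonneg_left ih hpos.le
          _ = c' ^ (k + 1) * x0 := by ring
    have hev1 : ∀ᶠ k : ℕ in atTop, X1 ≤ c ^ k * x0 := by
      filter_upwards [(tendsto_pow_atTop_atTop_of_one_lt hc).eventually_ge_atTop (max X1 0)]
        with k hk
      have h0 : 0 ≤ c ^ k := by positivity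
      have : X1 ≤ c ^ k := (le_max_left _ _).trans hk
      nlinarith
    have hev2 := (tendsto_pow_atTop_atTop_of_one_lt hρ).eventually_gt_atTop (x0 ^ δ)
    obtain ⟨k, hk1, hk2⟩ := (hev1.and hev2).exists
    have h5 := hX1 (c ^ k * x0) hk1
    have h6 : (c ^ k * x0) ^ (1 - δ) = (c ^ (1 - δ)) ^ k * x0 ^ (1 - δ) := by
      rw [Real.mul_rpow (by positivity) hx0pos.le]
      congr 1
      rw [← Real.rpow_natCast, ← Real.rpow_natCast, ← Real.rpow_mul hc0.le,
        ← Real.rpow_mul hc0.le]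
      congr 1
      ring
    have h7 : (c ^ (1 - δ)) ^ k * x0 ^ (1 - δ) ≤ c' ^ k * x0 := by
      rw [← h6]; exact h5.trans (hind k)
    have h8 : x0 ^ (1 - δ) * x0 ^ δ = x0 := by
      rw [← Real.rpow_add hx0pos]; simp
    have hxd : 0 < x0 ^ (1 - δ) := Real.rpow_pos_of_pos hx0pos _
    have h9 : (c ^ (1 - δ) / c') ^ k ≤ x0 ^ δ := by
      rw [div_pow, div_le_iff₀ (pow_pos hpos k)]
      have : (c ^ (1 - δ)) ^ k * x0 ^ (1 - δ) ≤ (x0 ^ δ * c' ^ k) * x0 ^ (1 - δ) := by
        calc (c ^ (1 - δ)) ^ k * x0 ^ (1 - δ) ≤ c' ^ k * x0 := h7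
          _ = (x0 ^ δ * c' ^ k) * x0 ^ (1 - δ) := by
              conv_lhs => rw [← h8]
              ring
      exact le_of_mul_le_mul_right this hxd
    linarith

/-- If the ratio `V(cx)/V(x)` has a limit, the limit is `c`. -/
theorem limit_eq (c : ℝ) (hc : 1 < c) (L : ℝ)
    (hL : Tendsto (fun x : ℝ => (totientCount (c * x) : ℝ) / totientCount x) atTop (nhds L)) :
    L = c := by
  have hVpos : ∀ᶠ x : ℝ in atTop, (0 : ℝ) < totientCount x := by
    filter_upwards [eventually_ge_atTop (1 : ℝ)] with x hx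
    exact_mod_cast tc_pos hx
  rcases lt_trichotomy L c with hlt | heq | hgt
  · exfalso
    have hev : ∀ᶠ x : ℝ in atTop,
        (totientCount (c * x) : ℝ) / totientCount x < (L + c) / 2 :=
      hL.eventually (gt_mem_nhds (by linarith))
    have hfr := frequently_gt c hc ((c - L) / 2) (by linarith)
    obtain ⟨x, hx1, hx2, hx3⟩ := (hfr.and_eventually (hev.and hVpos)).exists
    rw [div_lt_iff₀ hx3] at hx2
    have : c - (c - L) / 2 = (L + c) / 2 := by ring
    rw [this] at hx1
    linarith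
  · exact heq
  · exfalso
    have hev : ∀ᶠ x : ℝ in atTop,
        (L + c) / 2 < (totientCount (c * x) : ℝ) / totientCount x :=
      hL.eventually (lt_mem_nhds (by linarith))
    have hfr := frequently_lt c hc ((L - c) / 2) (by linarith)
    obtain ⟨x, hx1, hx2, hx3⟩ := (hfr.and_eventually (hev.and hVpos)).exists
    rw [lt_div_iff₀ hx3] at hx2
    have : c + (L - c) / 2 = (L + c) / 2 := by ring
    rw [this] at hx1
    linarith

end Vale.Agent.Lib.P031
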